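import Vale.Agent.P096.Semi.Newton
import Vale.Agent.P096.Rep

/-!
P096, all algebras: two one parameter groups of unitaries that are uniformly close are conjugate
by a unitary near the identity, the weak limit of their mixed averages.
-/

open scoped InnerProductSpace
open Filter Topology

namespace Vale.Agent.P096.Three.Rotate

open Full.Uniform (WLim)

variable {H : Type} [NormedAddCommGroup H] [InnerProductSpace ℂ H] [CompleteSpace H]

/-- A one parameter group of unitaries. -/
structure IsFlow (U : ℝ → (H →L[ℂ] H)) : Prop where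
  add : ∀ s t, U (s + t) = U s * U t
  zero : U 0 = 1
  adj : ∀ t, star (U t) = U (-t)
  cont : ∀ v, Continuous fun t => U t v

namespace IsFlow

variable {U : ℝ → (H →L[ℂ] H)} (h : IsFlow U)
include h

theorem neg_mul' (t : ℝ) : U (-t) * U t = 1 := by rw [← h.add, neg_add_cancel, h.zero]

theorem mul_neg' (t : ℝ) : U t * U (-t) = 1 := by rw [← h.add, add_neg_cancel, h.zero]

theorem mem_unitary (t : ℝ) : U t ∈ unitary (H →L[ℂ] H) :=
  Unitary.mem_iff.2 ⟨by rw [h.adj, h.neg_mul'], by rw [h.adj, h.mul_neg']⟩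

theorem comm_neg {a : H →L[ℂ] H} {t : ℝ} (ha : U t * a = a * U t) :
    U (-t) * a = a * U (-t) := by
  calc U (-t) * a = U (-t) * (a * U t) * U (-t) := by
        simp only [mul_assoc, h.mul_neg', mul_one]
    _ = U (-t) * U t * a * U (-t) := by rw [← ha]; simp only [mul_assoc]
    _ = a * U (-t) := by rw [h.neg_mul', one_mul]

end IsFlow

/-- The average of the first `K` values. -/
noncomputable def avgN (K : ℕ) (f : ℕ → (H →L[ℂ] H)) : H →L[ℂ] H :=
  (K : ℂ)⁻¹ • ∑ k ∈ Finset.range K, f k

theorem norm_avgN_le {K : ℕ} {f : ℕ → (H →L[ℂ] H)} {c : ℝ} (hc : 0 ≤ c) (h : ∀ k, ‖f k‖ ≤ c) :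
    ‖avgN K f‖ ≤ c := by
  rcases Nat.eq_zero_or_pos K with rfl | hK
  · simp [avgN, hc]
  rw [avgN, norm_smul, norm_inv, Complex.norm_natCast, inv_mul_le_iff₀ (by exact_mod_cast hK)]
  refine (norm_sum_le _ _).trans ((Finset.sum_le_sum fun k _ => h k).trans_eq ?_)
  rw [Finset.sum_const, Finset.card_range, nsmul_eq_mul]

theorem avgN_shift_le {K d : ℕ} {f : ℕ → (H →L[ℂ] H)} {c : ℝ} (h : ∀ k, ‖f k‖ ≤ c) :
    ‖avgN K (fun k => f (k + d)) - avgN K f‖ ≤ (K : ℝ)⁻¹ * (2 * d * c) := by
  have e1 := Finset.sum_range_add f d K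
  have e2 := Finset.sum_range_add f K d
  rw [add_comm d K, e2] at e1
  have hsum : (∑ k ∈ Finset.range K, f (k + d)) - ∑ k ∈ Finset.range K, f k =
      (∑ k ∈ Finset.range d, f (K + k)) - ∑ k ∈ Finset.range d, f k := by
    have e3 : (∑ k ∈ Finset.range K, f (k + d)) = ∑ k ∈ Finset.range K, f (d + k) :=
      Finset.sum_congr rfl fun k _ => by rw [add_comm]
    rw [e3, sub_eq_sub_iff_add_eq_add, add_comm _ (∑ k ∈ Finset.range d, f k), ← e1, add_comm]
  rw [avgN, avgN, ← smul_sub, norm_smul, norm_inv, Complex.norm_natCast, hsum]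
  refine mul_le_mul_of_nonneg_left ?_ (by positivity)
  refine (norm_sub_le _ _).trans ((add_le_add ((norm_sum_le _ _).trans
    (Finset.sum_le_sum fun k _ => h _)) ((norm_sum_le _ _).trans
    (Finset.sum_le_sum fun k _ => h _))).trans_eq ?_)
  rw [Finset.sum_const, Finset.card_range, nsmul_eq_mul]
  ring

/-- The mixed product of the two groups. -/
noncomputable def mix (U U' : ℝ → (H →L[ℂ] H)) (s : ℝ) : H →L[ℂ] H := U' s * U (-s)

/-- The `n`-th mixed average. -/
noncomputable def mixAvg (U U' : ℝ → (H →L[ℂ] H)) (n : ℕ) : H →L[ℂ] H :=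
  avgN ((n + 1) * 2 ^ n) fun k => mix U U' ((k : ℝ) / 2 ^ n)

variable {U U' : ℝ → (H →L[ℂ] H)}

omit [CompleteSpace H] in
theorem mix_comm {a : H →L[ℂ] H} (hU : ∀ t, U t * a = a * U t) (hU' : ∀ t, U' t * a = a * U' t)
    (s : ℝ) : mix U U' s * a = a * mix U U' s := by
  rw [mix, mul_assoc, hU, ← mul_assoc, hU', mul_assoc]

theorem mix_shift (hU : IsFlow U) (hU' : IsFlow U') (a s : ℝ) :
    U' a * mix U U' s * U (-a) = mix U U' (s + a) := by
  have e1 : U' (s + a) = U' a * U' s := by rw [add_comm, hU'.add]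
  have e2 : U (-(s + a)) = U (-s) * U (-a) := by rw [neg_add, hU.add]
  simp only [mix, e1, e2, mul_assoc]

/-- The weak limit of the mixed averages: it is near the identity, it intertwines the groups and
it commutes with what commutes with both. -/
theorem exists_mean (hU : IsFlow U) (hU' : IsFlow U') {ε : ℝ}
    (hε : ∀ t, ‖U' t * U (-t) - 1‖ ≤ ε) :
    ∃ W : H →L[ℂ] H, ‖W - 1‖ ≤ ε ∧ (∀ t, U' t * W = W * U t) ∧
      ∀ a : H →L[ℂ] H, (∀ t, U t * a = a * U t) → (∀ t, U' t * a = a * U' t) →
        W * a = a * W := by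
  have hε0 : 0 ≤ ε := (norm_nonneg _).trans (hε 0)
  let 𝔘 : Ultrafilter ℕ := Ultrafilter.of atTop
  have hle : (𝔘 : Filter ℕ) ≤ atTop := Ultrafilter.of_le _
  set D : ℕ → (H →L[ℂ] H) := fun n =>
    avgN ((n + 1) * 2 ^ n) fun k => mix U U' ((k : ℝ) / 2 ^ n) - 1 with hD
  obtain ⟨T, hT, hlim⟩ := Semi.exists_opLim 𝔘 D hε0 fun n =>
    norm_avgN_le hε0 fun k => hε _
  have hDB : ∀ n, D n + 1 = mixAvg U U' n := by
    intro n
    have hK : (((n + 1) * 2 ^ n : ℕ) : ℂ) ≠ 0 := by exact_mod_cast by positivity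
    simp only [hD, mixAvg, avgN, Finset.sum_sub_distrib, Finset.sum_const, Finset.card_range,
      smul_sub]
    rw [← Nat.cast_smul_eq_nsmul ℂ, smul_smul, inv_mul_cancel₀ hK, one_smul]
    abel
  have hB : ∀ v, WLim (𝔘 : Filter ℕ) (fun n => mixAvg U U' n v) ((T + 1) v) := fun v =>
    ((hlim v).add (Full.Uniform.WLim.const v)).congr (Eventually.of_forall fun n => by
      rw [← hDB]; rfl)
  set W := T + 1 with hW
  have hcomm : ∀ a : H →L[ℂ] H, (∀ t, U t * a = a * U t) → (∀ t, U' t * a = a * U' t) →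
      W * a = a * W := by
    intro a h1 h2
    refine ContinuousLinearMap.ext fun v => ?_
    refine (hB (a v)).unique (((hB v).map a).congr (Eventually.of_forall fun n => ?_))
    have e : mixAvg U U' n * a = a * mixAvg U U' n := by
      simp only [mixAvg, avgN, smul_mul_assoc, mul_smul_comm, Finset.sum_mul, Finset.mul_sum,
        mix_comm h1 h2]
    exact (DFunLike.congr_fun e v).symm
  refine ⟨W, by rwa [hW, add_sub_cancel_right], ?_, hcomm⟩
  have hmix : ∀ s, ‖mix U U' s‖ ≤ 1 := fun s =>
    Semi.unitary_norm_le (mul_mem (hU'.mem_unitary s) (hU.mem_unitary _))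
  -- dyadic times
  have hdy : ∀ j m : ℕ, U' ((j : ℝ) / 2 ^ m) * W = W * U ((j : ℝ) / 2 ^ m) := by
    intro j m
    set a : ℝ := (j : ℝ) / 2 ^ m with ha
    have key : U' a * W * U (-a) = W := by
      refine ContinuousLinearMap.ext fun v => ?_
      have h1 : WLim (𝔘 : Filter ℕ) (fun n => (U' a * mixAvg U U' n * U (-a)) v)
          ((U' a * W * U (-a)) v) :=
        ((hB (U (-a) v)).map (U' a)).congr (Eventually.of_forall fun n => rfl)
      have h2 : Tendsto (fun n => (U' a * mixAvg U U' n * U (-a) - mixAvg U U' n) v)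
          (𝔘 : Filter ℕ) (𝓝 0) := by
        refine Tendsto.mono_left ?_ hle
        refine squeeze_zero_norm' (a := fun n : ℕ => 2 * a * ‖v‖ * (1 / ((n : ℝ) + 1))) ?_ ?_
        · filter_upwards [eventually_ge_atTop m] with n hn
          obtain ⟨q, rfl⟩ := Nat.exists_eq_add_of_le hn
          refine (ContinuousLinearMap.le_opNorm _ v).trans ?_
          have e : U' a * mixAvg U U' (m + q) * U (-a) =
              avgN ((m + q + 1) * 2 ^ (m + q))
                (fun k => mix U U' (((k + j * 2 ^ q : ℕ) : ℝ) / 2 ^ (m + q))) := by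
            simp only [mixAvg, avgN, mul_smul_comm, smul_mul_assoc, Finset.mul_sum,
              Finset.sum_mul, mix_shift hU hU']
            congr 1
            refine Finset.sum_congr rfl fun k _ => congrArg _ ?_
            rw [ha, pow_add]
            push_cast
            field_simp
          rw [e, mixAvg]
          refine (mul_le_mul_of_nonneg_right (avgN_shift_le (f := fun k => mix U U'
            ((k : ℝ) / 2 ^ (m + q))) fun k => hmix _) (norm_nonneg v)).trans_eq ?_
          rw [ha, pow_add]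
          push_cast
          field_simp
        · simpa using tendsto_one_div_add_atTop_nhds_zero_nat.const_mul (2 * a * ‖v‖)
      have h3 : WLim (𝔘 : Filter ℕ)
          (fun n => (U' a * mixAvg U U' n * U (-a) - mixAvg U U' n) v) 0 := fun ζ =>
        (tendsto_const_nhds.inner h2)
      have h4 := h1.sub h3
      rw [sub_zero] at h4
      refine (h4.congr (g := fun n => mixAvg U U' n v) (Eventually.of_forall fun n => ?_)).unique
        (hB v)
      simp
    calc U' a * W = U' a * W * (U (-a) * U a) := by rw [hU.neg_mul', mul_one]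
      _ = W * U a := by rw [← mul_assoc, key]
  have hcl : IsClosed {s : ℝ | U' s * W = W * U s} := by
    have e : {s : ℝ | U' s * W = W * U s} = ⋂ v, {s | U' s (W v) = W (U s v)} := by
      ext s
      simp only [Set.mem_ofPred_eq, Set.mem_iInter]
      exact ⟨fun h v => DFunLike.congr_fun h v, fun h => ContinuousLinearMap.ext h⟩
    rw [e]
    exact isClosed_iInter fun v => isClosed_eq (hU'.cont _) (W.continuous.comp (hU.cont v))
  have hpos : ∀ s : ℝ, 0 ≤ s → U' s * W = W * U s := fun s hs => by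
    refine hcl.mem_of_tendsto ((tendsto_nat_floor_mul_div_atTop hs).comp
      (tendsto_pow_atTop_atTop_of_one_lt (one_lt_two (α := ℝ)))) (Eventually.of_forall fun m => ?_)
    exact hdy _ m
  intro t
  rcases le_total 0 t with h | h
  · exact hpos t h
  · have e := hpos (-t) (neg_nonneg.2 h)
    calc U' t * W = U' t * (W * U (-t)) * U t := by
          simp only [mul_assoc, hU.neg_mul', mul_one]
      _ = U' t * U' (-t) * W * U t := by rw [← e]; simp only [mul_assoc]
      _ = W * U t := by rw [hU'.mul_neg', one_mul]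

/-- Uniformly close groups are conjugate by a unitary near the identity that commutes with what
commutes with both. -/
theorem exists_conjugate (hU : IsFlow U) (hU' : IsFlow U') {ε : ℝ} (hε8 : ε ≤ 1 / 8)
    (hε : ∀ t, ‖U' t * U (-t) - 1‖ ≤ ε) :
    ∃ w : unitary (H →L[ℂ] H), ‖(w : H →L[ℂ] H) - 1‖ ≤ 8 * ε ∧
      (∀ t, U' t = (w : H →L[ℂ] H) * U t * star (w : H →L[ℂ] H)) ∧
      ∀ a : H →L[ℂ] H, (∀ t, U t * a = a * U t) → (∀ t, U' t * a = a * U' t) →
        (w : H →L[ℂ] H) * a = a * (w : H →L[ℂ] H) := by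
  obtain ⟨W, hW1, hW, hWc⟩ := exists_mean hU hU' hε
  obtain ⟨w, hw, hw1, hwp⟩ := polar_near hε8 hW1
  refine ⟨⟨w, hw⟩, hw1, fun t => hwp _ _ (hW t) ?_, fun a h1 h2 => ?_⟩
  · have e : star W * U' t = U t * star W := by
      have := congrArg star (hW (-t))
      simpa [star_mul, hU.adj, hU'.adj] using this
    show star W * W * U t = U t * (star W * W)
    rw [mul_assoc, ← hW, ← mul_assoc, e, mul_assoc]
  · have hs : star W * a = a * star W := by
      have h1' : ∀ t, U t * star a = star a * U t := fun t => by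
        have := congrArg star (h1 (-t))
        simpa [star_mul, hU.adj] using this.symm
      have h2' : ∀ t, U' t * star a = star a * U' t := fun t => by
        have := congrArg star (h2 (-t))
        simpa [star_mul, hU'.adj] using this.symm
      have := congrArg star (hWc _ h1' h2')
      simpa [star_mul] using this.symm
    have e := hwp a a (hWc a h1 h2).symm (by
      show star W * W * a = a * (star W * W)
      rw [mul_assoc, hWc a h1 h2, ← mul_assoc, hs, mul_assoc])
    calc w * a = w * a * (star w * w) := by rw [(Unitary.mem_iff.1 hw).1, mul_one]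
      _ = a * w := by rw [← mul_assoc, ← e]

end Vale.Agent.P096.Three.Rotate
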